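import Vale.Agent.P137.Bound

/-!
# P137: variation of the centred and uncentred maximal functions of convex indicators

For every dimension there is a constant `C` such that for every bounded convex set `K` the
axis-slice variation of the maximal function of the indicator of `K`, centred or uncentred, is at
most `C` times the axis-slice variation of the indicator.
-/

namespace Vale.Agent.Results.P137.ConvexIndicators

open MeasureTheory Set Metric Filter Bornology Vale.Agent.P137
open scoped ENNReal NNReal

noncomputable section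

variable {n : ℕ}

theorem admissible_centred :
    Admissible fun (x c : Eu (n + 1)) (r : ℝ) => 0 < r ∧ c = x where
  dist_lt h := by simpa [h.2] using h.1
  mono h hr := ⟨h.1.trans_le hr, h.2⟩
  comb {x c r x' c' r' a b} h h' ha hb hab := by
    refine ⟨?_, by rw [h.2, h'.2]⟩
    rcases ha.eq_or_lt with rfl | ha'
    · obtain rfl : b = 1 := by linarith
      simpa using h'.1
    · have := h.1; have := h'.1; positivity

theorem admissible_uncentred :
    Admissible fun (x c : Eu (n + 1)) (r : ℝ) => x ∈ ball c r where
  dist_lt h := mem_ball.1 h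
  mono h hr := ball_subset_ball hr h
  comb {x c r x' c' r' a b} h h' ha hb hab := by
    rw [mem_ball_iff_norm] at h h' ⊢
    rw [add_sub_add_comm, ← smul_sub, ← smul_sub]
    refine (norm_add_le _ _).trans_lt ?_
    rw [norm_smul, norm_smul, Real.norm_of_nonneg ha, Real.norm_of_nonneg hb]
    rcases ha.eq_or_lt with rfl | ha'
    · obtain rfl : b = 1 := by linarith
      simpa using h'
    · exact add_lt_add_of_lt_of_le (mul_lt_mul_of_pos_left h ha')
        (mul_le_mul_of_nonneg_left h'.le hb)

theorem setLIntegral_indicator_convex {K : Set (Eu (n + 1))} (hK : Convex ℝ K) (c : Eu (n + 1))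
    (r : ℝ) : ∫⁻ y in ball c r, ‖K.indicator (1 : Eu (n + 1) → ℝ) y‖ₑ
      = volume (interior K ∩ ball c r) := by
  have e : interior K =ᵐ[volume] K := interior_ae_eq_of_null_frontier (hK.addHaar_frontier volume)
  have h1 : (fun y => ‖K.indicator (1 : Eu (n + 1) → ℝ) y‖ₑ)
      = K.indicator (1 : Eu (n + 1) → ℝ≥0∞) := by
    funext y
    by_cases hy : y ∈ K <;> simp [hy]
  rw [h1, lintegral_congr_ae (ae_restrict_of_ae (indicator_ae_eq_of_ae_eq_set e.symm)),
    setLIntegral_indicator isOpen_interior.measurableSet]
  simp

theorem centredMax_eq {K : Set (Eu (n + 1))} (hK : Convex ℝ K) (x : Eu (n + 1)) :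
    centredMax (K.indicator 1) x
      = (maxO (fun x c r => 0 < r ∧ c = x) (interior K) x).toReal := by
  rw [centredMax, maxO]
  simp only [setLIntegral_indicator_convex hK]
  congr 1
  refine le_antisymm (iSup_le fun r => iSup_le fun hr => ?_)
    (iSup_le fun c => iSup_le fun r => iSup_le fun h => ?_)
  · exact le_iSup_of_le x (le_iSup_of_le r (le_iSup_of_le ⟨hr, rfl⟩ le_rfl))
  · obtain ⟨hr, rfl⟩ := h
    exact le_iSup_of_le r (le_iSup_of_le hr le_rfl)

theorem uncentredMax_eq {K : Set (Eu (n + 1))} (hK : Convex ℝ K) (x : Eu (n + 1)) :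
    uncentredMax (K.indicator 1) x
      = (maxO (fun x c r => x ∈ ball c r) (interior K) x).toReal := by
  rw [uncentredMax, maxO]
  simp only [setLIntegral_indicator_convex hK]

theorem two_le_variation {K : Set (Eu (n + 1))} (hb : IsBounded K) (i : Fin (n + 1))
    (y : Fin n → ℝ) : (proj i (interior K)).indicator 2 y
      ≤ eVariationOn (fun t => K.indicator (1 : Eu (n + 1) → ℝ) (onLine i y t)) univ := by
  classical
  by_cases hy : y ∈ proj i (interior K)
  · rw [indicator_of_mem hy]
    obtain ⟨t₀, ht₀⟩ := mem_iUnion.1 hy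
    obtain ⟨R, hR⟩ := hb.exists_norm_le
    have hout : ∀ t, R < |t| → onLine i y t ∉ K := fun t ht h =>
      ht.not_ge ((abs_le_norm_onLine i y t).trans (hR _ h))
    have h0 := (abs_le_norm_onLine i y t₀).trans (hR _ (interior_subset ht₀))
    obtain ⟨hl, hr⟩ := abs_le.1 h0
    let u : ℕ → ℝ := fun k => if k = 0 then -(R + 1) else if k = 1 then t₀ else R + 1
    have hu : Monotone u := monotone_nat_of_le_succ fun k => by
      rcases k with _ | _ | k <;> simp [u] <;> linarith
    have hs := eVariationOn.sum_le
      (f := fun t => K.indicator (1 : Eu (n + 1) → ℝ) (onLine i y t)) (s := univ) (n := 2) hu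
      (fun _ => mem_univ _)
    refine le_trans (le_of_eq ?_) hs
    have e0 : K.indicator (1 : Eu (n + 1) → ℝ) (onLine i y t₀) = 1 := by
      rw [indicator_of_mem (interior_subset ht₀)]; rfl
    have e1 : ∀ t, R < |t| → K.indicator (1 : Eu (n + 1) → ℝ) (onLine i y t) = 0 := fun t ht =>
      indicator_of_notMem (hout t ht) _
    have hR0 : 0 ≤ R := le_trans (abs_nonneg _) h0
    have a1 := e1 (-(R + 1)) (by rw [abs_neg, abs_of_nonneg (by linarith)]; linarith)
    have a2 := e1 (R + 1) (by rw [abs_of_nonneg (by linarith)]; linarith)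
    simp only [Finset.sum_range_succ, Finset.sum_range_zero, zero_add, u, if_true,
      OfNat.ofNat_ne_zero, one_ne_zero, OfNat.ofNat_ne_one, if_false,
      Nat.reduceAdd, e0, a1, a2]
    norm_num [edist_dist]
  · simp [indicator_of_notMem hy]

theorem two_mul_sum_proj_le {K : Set (Eu (n + 1))} (hb : IsBounded K) :
    2 * ∑ i, volume (proj i (interior K))
      ≤ axialVariation (K.indicator (1 : Eu (n + 1) → ℝ)) := by
  rw [Finset.mul_sum]
  refine Finset.sum_le_sum fun i _ => le_trans (le_of_eq ?_)
    (lintegral_mono fun y => two_le_variation hb i y)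
  rw [lintegral_indicator (isOpen_proj i isOpen_interior).measurableSet]
  simp

/-- For every dimension `n + 1` there is a constant bounding the variation of the centred, and of
the uncentred, maximal function of the indicator of every bounded convex set by the variation of
the indicator. -/
theorem result (n : ℕ) :
    ∃ C : ℝ≥0, ∀ K : Set (EuclideanSpace ℝ (Fin (n + 1))), Convex ℝ K → IsBounded K →
      axialVariation (centredMax (K.indicator 1)) ≤ C * axialVariation (K.indicator 1) ∧
      axialVariation (uncentredMax (K.indicator 1)) ≤ C * axialVariation (K.indicator 1) := by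
  set D : ℝ≥0∞ := (n + 1) * ((1 + 2 ^ (n + 1)) * packConst n * (4 * (n + 1))) with hD
  have hpk : packConst n ≠ ⊤ := ENNReal.div_ne_top
    (ENNReal.mul_ne_top (ENNReal.pow_ne_top ENNReal.ofNat_ne_top)
      (ENNReal.pow_ne_top ENNReal.ofNat_ne_top)) (measure_ball_pos volume _ one_pos).ne'
  have hn : ((n : ℝ≥0∞) + 1) ≠ ⊤ := by simp
  have hDt : D ≠ ⊤ := ENNReal.mul_ne_top hn (ENNReal.mul_ne_top (ENNReal.mul_ne_top
    (by simp) hpk) (ENNReal.mul_ne_top ENNReal.ofNat_ne_top hn))
  refine ⟨D.toNNReal, fun K hK hb => ?_⟩
  rw [ENNReal.coe_toNNReal hDt]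
  have key : ∀ P, Admissible P → ∀ F : Eu (n + 1) → ℝ,
      (∀ x, F x = (maxO P (interior K) x).toReal) →
      axialVariation F ≤ D * axialVariation (K.indicator (1 : Eu (n + 1) → ℝ)) := by
    intro P hP F hF
    rw [show F = fun x => (maxO P (interior K) x).toReal from funext hF]
    refine le_trans ?_ (mul_le_mul_right (two_mul_sum_proj_le hb) D)
    refine (Finset.sum_le_sum fun i _ => lintegral_variation_le hP isOpen_interior hK.interior
      (hb.subset interior_subset) i).trans (le_of_eq ?_)
    rw [Finset.sum_const, Finset.card_univ, Fintype.card_fin, nsmul_eq_mul, Nat.cast_succ, hD]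
    ring
  exact ⟨key _ admissible_centred _ (centredMax_eq hK),
    key _ admissible_uncentred _ (uncentredMax_eq hK)⟩

end

end Vale.Agent.Results.P137.ConvexIndicators
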