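import Vale.Agent.P137.Regularity
import Vale.Agent.Results.P137.ConvexIndicators

/-!
# P137: variation of the maximal functions of block-decreasing functions

For every dimension there is a constant `C` such that the axis-slice variation of the centred, and
of the uncentred, maximal function of a block-decreasing function is at most `C` times the
axis-slice variation of the function. If moreover the function is absolutely continuous on almost
every line parallel to an axis and has finite variation, then its centred maximal function is
locally integrable and absolutely continuous on almost every such line.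
-/

namespace Vale.Agent.Results.P137.BlockDecreasing

open MeasureTheory Set Metric Vale.Agent.P137
open scoped ENNReal NNReal

noncomputable section

variable {n : ℕ}

theorem centredMax_eq (f : Eu (n + 1) → ℝ) (x : Eu (n + 1)) :
    centredMax f x = (maxF (fun x c r => 0 < r ∧ c = x) f x).toReal := by
  rw [centredMax, maxF]
  congr 1
  refine le_antisymm (iSup_le fun r => iSup_le fun hr => ?_)
    (iSup_le fun c => iSup_le fun r => iSup_le fun h => ?_)
  · exact le_iSup_of_le x (le_iSup_of_le r (le_iSup_of_le ⟨hr, rfl⟩ le_rfl))
  · obtain ⟨hr, rfl⟩ := h
    exact le_iSup_of_le r (le_iSup_of_le hr le_rfl)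

/-- For every dimension `n + 1` there is a constant bounding the variation of the centred, and of
the uncentred, maximal function of every block-decreasing function by the variation of the
function; absolute continuity on almost every axis line passes to the centred maximal function. -/
theorem result (n : ℕ) :
    ∃ C : ℝ≥0, ∀ f : EuclideanSpace ℝ (Fin (n + 1)) → ℝ, Measurable f → (∀ x, 0 ≤ f x) →
      (∀ x z : EuclideanSpace ℝ (Fin (n + 1)), (∀ j, |x j| ≤ |z j|) → f z ≤ f x) →
      (∀ ε : ℝ, 0 < ε → volume {x | ε < f x} ≠ ⊤) →
      (axialVariation (centredMax f) ≤ C * axialVariation f ∧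
        axialVariation (uncentredMax f) ≤ C * axialVariation f) ∧
      (axialVariation f ≠ ⊤ →
        (∀ i, ∀ᵐ y : Fin n → ℝ, ∀ a b : ℝ,
          AbsolutelyContinuousOnInterval (fun t => f (onLine i y t)) a b) →
        LocallyIntegrable (centredMax f) volume ∧
        ∀ i, ∀ᵐ y : Fin n → ℝ, ∀ a b : ℝ,
          AbsolutelyContinuousOnInterval (fun t => centredMax f (onLine i y t)) a b) := by
  set D : ℝ≥0∞ := (n + 1) * (4 * lineConst n * 8 ^ n) + 1 with hD
  have hDt : D ≠ ⊤ := ENNReal.add_ne_top.2 ⟨ENNReal.mul_ne_top (by simp) (ENNReal.mul_ne_top
    (ENNReal.mul_ne_top ENNReal.ofNat_ne_top (lineConst_ne_top n))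
    (ENNReal.pow_ne_top ENNReal.ofNat_ne_top)), ENNReal.one_ne_top⟩
  refine ⟨D.toNNReal, fun f hf h0 hbd hfin => ?_⟩
  rw [ENNReal.coe_toNNReal hDt,
    show centredMax f = fun x => (maxF (fun x c r => 0 < r ∧ c = x) f x).toReal from
      funext (centredMax_eq f)]
  refine ⟨⟨?_, ?_⟩, fun hV hac => ⟨?_, fun i => ?_⟩⟩
  · exact axialVariation_maxF_le ConvexIndicators.admissible_centred lineMono_centred hf h0 hbd hfin
  · exact axialVariation_maxF_le ConvexIndicators.admissible_uncentred lineMono_uncentred
      hf h0 hbd hfin
  · exact locallyIntegrable_centred ConvexIndicators.admissible_centred hf h0 hbd hfin hV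
  · exact ae_absolutelyContinuous_centred ConvexIndicators.admissible_centred hf h0 hbd hfin hV i
      (hac i)

end

end Vale.Agent.Results.P137.BlockDecreasing
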