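import Vale.Agent.P137.OffHalf

/-!
# P137: centred maximal function of an indicator of finite perimeter, levels away from one half
-/

namespace Vale.Agent.Results.P137.OffHalfIndicators

open MeasureTheory
open scoped ENNReal

theorem result : ∀ (d : ℕ) (a : ℝ), 0 ≤ a → a < 1 / 2 → ∃ C : ℝ≥0∞, C ≠ ⊤ ∧
    ∀ (E : Set (EuclideanSpace ℝ (Fin d))) (P : ℝ≥0∞), MeasurableSet E →
      (∀ h, ∫⁻ x, ‖E.indicator (1 : EuclideanSpace ℝ (Fin d) → ℝ) (x + h)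
          - E.indicator (1 : EuclideanSpace ℝ (Fin d) → ℝ) x‖ₑ ≤ P * ‖h‖ₑ) →
      (∃ Ψ : EuclideanSpace ℝ (Fin d) → ℝ≥0∞, Measurable Ψ ∧ ∫⁻ x, Ψ x ≤ C * P ∧ ∀ x y,
        ‖min (Vale.Agent.P137.centredMax (E.indicator (1 : EuclideanSpace ℝ (Fin d) → ℝ)) x) a
            - min (Vale.Agent.P137.centredMax (E.indicator (1 : EuclideanSpace ℝ (Fin d) → ℝ)) y) a‖ₑ
          ≤ ‖x - y‖ₑ * (Ψ x + Ψ y)) ∧
      ∀ h : EuclideanSpace ℝ (Fin d), ∫⁻ x,
        ‖max (Vale.Agent.P137.centredMax (E.indicator (1 : EuclideanSpace ℝ (Fin d) → ℝ)) (x + h))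
              (1 - a)
            - max (Vale.Agent.P137.centredMax (E.indicator (1 : EuclideanSpace ℝ (Fin d) → ℝ)) x)
              (1 - a)‖ₑ
          ≤ C * P * ‖h‖ₑ :=
  fun d a ha ha2 => Vale.Agent.P137.off_half d a ha ha2

end Vale.Agent.Results.P137.OffHalfIndicators
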