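import Vale.Agent.P137.Unc.Statement

/-!
# P137: endpoint regularity of the uncentred maximal function over Euclidean balls
-/

namespace Vale.Agent.Results.P137.UncentredSobolev

open MeasureTheory Vale.Agent.P137
open scoped ENNReal

theorem result : ∀ d : ℕ, 0 < d → ∃ C : ℝ≥0∞, C ≠ ⊤ ∧
    (∀ (f : Eu d → ℝ) (G : Eu d → Eu d), IsW11 f G →
      (∀ᵐ x : Eu d, uncentredSup f x ≠ ⊤) ∧ LocallyIntegrable (uncentredMax f) ∧
      ∃ G' : Eu d → Eu d, Integrable G' ∧ IsWeakGrad (uncentredMax f) G' ∧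
        ∫⁻ x, ‖G' x‖ₑ ≤ C * ∫⁻ x, ‖G x‖ₑ) ∧
    ∀ (f : Eu d → ℝ) (P : ℝ≥0∞), Integrable f → P ≠ ⊤ → VariationBound f P →
      LocallyIntegrable (uncentredMax f) ∧ VariationBound (uncentredMax f) (C * P) :=
  uncentred_endpoint

end Vale.Agent.Results.P137.UncentredSobolev
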